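import Vale.Agent.P193.Full.VFP.Presentation
import Vale.Agent.P193.Full.Calc.Frame

/-! The presentation of the trivial-coefficient group of the map calculus (P193). -/

namespace Vale.Agent.P193.Calc

variable {S : Type}

theorem coeffOf_empty_trivial : VFP.Trivial (coeffOf (S := S) ∅) := by
  intro m hm
  induction hm with
  | one => exact Or.inr rfl
  | of h => exact absurd h (Set.notMem_empty _)
  | inv _ ih =>
    rcases ih with rfl | rfl
    · exact Or.inl rfl
    · exact Or.inr (Set.ext fun ⟨x, y⟩ => ⟨fun e => ⟨e.1.symm, trivial⟩, fun e => ⟨e.1.symm, trivial⟩⟩)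
  | comp _ _ ih ih' =>
    rcases ih with rfl | rfl
    · exact Or.inl (Set.ext fun p => ⟨fun ⟨_, h, _⟩ => h, fun h => absurd h (Set.notMem_empty _)⟩)
    rcases ih' with rfl | rfl
    · exact Or.inl (Set.ext fun p => ⟨fun ⟨_, _, h⟩ => h, fun h => absurd h (Set.notMem_empty _)⟩)
    · exact Or.inr (by rw [gcomp_gid, Set.inter_self])
  | compl _ ih =>
    rcases ih with rfl | rfl
    · exact Or.inr (congrArg gid (Set.eq_univ_of_forall fun x ⟨_, h⟩ => h))
    · refine Or.inl (Set.ext fun p => ⟨fun h => h.2 ⟨p.1, rfl, trivial⟩, ?_⟩)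
      exact fun h => absurd h (Set.notMem_empty _)
  | union _ _ _ _ ih ih' =>
    rcases ih with rfl | rfl
    · rw [Set.empty_union]; exact ih'
    · rcases ih' with rfl | rfl
      · exact Or.inr (Set.union_empty _)
      · exact Or.inr (Set.union_self _)

/-- The trivial-coefficient group has a finite presentation. -/
theorem exists_vgrp_presentation [Nonempty S] :
    ∃ (m : ℕ) (vgen : Fin m → Vgrp S) (vrels : Finset (FreeGroup (Fin m))),
      Subgroup.closure (Set.range vgen) = ⊤ ∧
        Subgroup.normalClosure (vrels : Set (FreeGroup (Fin m))) =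
          (FreeGroup.lift vgen).ker := by
  have : Nonempty (Sp S) := ⟨(⟨fun _ => false, 0, fun _ _ => rfl⟩, Classical.arbitrary S)⟩
  exact VFP.exists_presentation coeffOf_empty_trivial

end Vale.Agent.P193.Calc
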