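import Vale.Agent.P193.Full.VFP.Central
import Vale.Agent.P193.Full.Lift.Split
import Mathlib.GroupTheory.FinitelyPresentedGroup

/-! A swap group with trivial coefficients on a nonempty space is finitely presented (P193).
Main names: `exists_presentation`, `isFinitelyPresented`. -/

open Classical

noncomputable section

namespace Vale.Agent.P193.VFP

universe u

variable {X : Type u} {H : Halving X} (M : Coeff H)

/-- The property holds under finitely many true relations. -/
def Ev (P : ∀ (G : Type) [Group G], (FW →* G) → Prop) : Prop :=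
  ∃ R : Finset FW, (∀ r ∈ R, ev M r = 1) ∧
    ∀ (G : Type) [Group G] (f : FW →* G), (∀ r ∈ R, f r = 1) → P G f

variable {M}

theorem Ev.mono {a b : ∀ (G : Type) [Group G], (FW →* G) → Prop} (ha : Ev M a)
    (h : ∀ (G : Type) [Group G] (f : FW →* G), a G f → b G f) : Ev M b := by
  obtain ⟨R, h1, h2⟩ := ha
  exact ⟨R, h1, fun G _ f hf => h G f (h2 G f hf)⟩

theorem Ev.and {a b : ∀ (G : Type) [Group G], (FW →* G) → Prop} (ha : Ev M a) (hb : Ev M b) :
    Ev M fun G _ f => a G f ∧ b G f := by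
  obtain ⟨R, h1, h2⟩ := ha
  obtain ⟨R', h1', h2'⟩ := hb
  exact ⟨R ∪ R', fun r hr => (Finset.mem_union.1 hr).elim (h1 r) (h1' r),
    fun G _ f hf => ⟨h2 G f fun r hr => hf r (Finset.mem_union_left _ hr),
      h2' G f fun r hr => hf r (Finset.mem_union_right _ hr)⟩⟩

theorem Ev.all {β : Type*} [Finite β] {a : β → ∀ (G : Type) [Group G], (FW →* G) → Prop}
    (h : ∀ x, Ev M (a x)) : Ev M fun G _ f => ∀ x, a x G f := by
  choose R h1 h2 using h
  have := Fintype.ofFinite β
  exact ⟨Finset.univ.biUnion R, fun r hr => by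
      obtain ⟨x, -, hx⟩ := Finset.mem_biUnion.1 hr
      exact h1 x r hx,
    fun G _ f hf x => h2 x G f fun r hr => hf r (Finset.mem_biUnion.2 ⟨x, Finset.mem_univ x, hr⟩)⟩

theorem Ev.rel {a b : FW} (h : ev M a = ev M b) : Ev M fun _ _ f => f a = f b := by
  refine ⟨{a * b⁻¹}, ?_, fun G _ f hf => ?_⟩
  · intro r hr
    rw [Finset.mem_singleton.1 hr, map_mul, map_inv, h, mul_inv_cancel]
  · have := hf _ (Finset.mem_singleton_self _)
    rwa [map_mul, map_inv, mul_inv_eq_one] at this

theorem Ev.imp {p : Prop} {a : ∀ (G : Type) [Group G], (FW →* G) → Prop} (h : p → Ev M a) :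
    Ev M fun G _ f => p → a G f := by
  by_cases hp : p
  · exact (h hp).mono fun G _ f hf _ => hf
  · exact ⟨∅, by simp, fun G _ f _ h => absurd h hp⟩

/-- Short lists. -/
abbrev Wd (n : ℕ) : Type := {l : List Bool // l.length ≤ n}

instance (n : ℕ) : Finite (Wd n) := (List.finite_length_le Bool n).to_subtype

variable [Nonempty X]

variable (M) in
/-- The evaluation into the swap group. -/
def evV : FW →* ↥(swapGroup M) := (ev M).codRestrict (swapGroup M) (ev_mem M)

theorem evV_surjective (hM : Trivial M) : Function.Surjective (evV M) := by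
  rintro ⟨σ, hσ⟩
  have hle : swapGroup M ≤ (ev M).range := by
    refine (swapGroup_le_deep hM 4).trans ((Subgroup.closure_le _).2 ?_)
    rintro _ ⟨u, v, h, hu, hv, rfl⟩
    exact ⟨Fw u v, ev_Fw hu hv h⟩
  obtain ⟨x, hx⟩ := hle hσ
  exact ⟨x, Subtype.ext hx⟩

theorem exists_gens_word (hM : Trivial M) (σ : Equiv.Perm X) (hσ : σ ∈ swapGroup M) :
    ∃ z ∈ Subgroup.closure
      {z | ∃ u v : List Bool, 4 ≤ u.length ∧ 4 ≤ v.length ∧ Apart u v ∧ z = Fw u v},
      ev M z = σ := by
  have hle : swapGroup M ≤ (Subgroup.closure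
      {z | ∃ u v : List Bool, 4 ≤ u.length ∧ 4 ≤ v.length ∧ Apart u v ∧ z = Fw u v}).map (ev M) := by
    refine (swapGroup_le_deep hM 4).trans ((Subgroup.closure_le _).2 ?_)
    rintro _ ⟨u, v, h, hu, hv, rfl⟩
    exact ⟨Fw u v, Subgroup.subset_closure ⟨u, v, hu, hv, h, rfl⟩, ev_Fw hu hv h⟩
  exact hle hσ

theorem exists_comm_word (hM : Trivial M) (σ : ↥(swapGroup M)) :
    ∃ z ∈ commutator FW, evV M z = σ := by
  have h : (commutator FW).map (evV M) = ⊤ := by
    rw [commutator_def, Subgroup.map_commutator, Subgroup.map_top_of_surjective _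
      (evV_surjective hM), ← commutator_def]
    exact swapGroup_schurPerfect M
  have hm : σ ∈ (commutator FW).map (evV M) := by rw [h]; exact Subgroup.mem_top σ
  exact hm

/-- All relations hold under finitely many true ones. -/
theorem ev_good (hM : Trivial M) : Ev M fun _ _ f => Good M f := by
  have h1 : Ev M fun _ _ f => ∀ (s : Gen) (u v u' v' : Wd 4), u.1.length = 4 → v.1.length = 4 →
      u'.1.length = 4 → v'.1.length = 4 → Apart u.1 v.1 →
      Sends H (ev M (FreeGroup.of s)) u.1 u'.1 → Sends H (ev M (FreeGroup.of s)) v.1 v'.1 →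
      f (FreeGroup.of s * base u.1 v.1 * (FreeGroup.of s)⁻¹) = f (base u'.1 v'.1) := by
    refine Ev.all fun s => Ev.all fun u => Ev.all fun v => Ev.all fun u' => Ev.all fun v' =>
      Ev.imp fun a => Ev.imp fun b => Ev.imp fun c => Ev.imp fun d => Ev.imp fun h =>
      Ev.imp fun su => Ev.imp fun sv => Ev.rel ?_
    rw [map_mul, map_mul, map_inv, ev_base M (by omega) (by omega) h,
      ev_base M (by omega) (by omega) (su.apart sv h)]
    exact sw_conj h su sv _
  have h2 : Ev M fun _ _ f => ∀ (s : Gen) (p q p' q' : Wd 20), Pr p.1 q.1 → Pr p'.1 q'.1 →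
      Sends H (ev M (FreeGroup.of s)) p.1 p'.1 → Sends H (ev M (FreeGroup.of s)) q.1 q'.1 →
      ∃ η ∈ Subgroup.closure (avoid (red p'.1 q'.1).2.1 (red p'.1 q'.1).2.2),
        ∃ π ∈ Subgroup.closure lvl, Sends H (ev M π) (red p.1 q.1).2.1 (red p'.1 q'.1).2.1 ∧
          Sends H (ev M π) (red p.1 q.1).2.2 (red p'.1 q'.1).2.2 ∧
          f (FreeGroup.of s * (red p.1 q.1).1) = f ((red p'.1 q'.1).1 * η * π) := by
    refine Ev.all fun s => Ev.all fun p => Ev.all fun q => Ev.all fun p' => Ev.all fun q' =>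
      Ev.imp fun hpq => Ev.imp fun hpq' => Ev.imp fun sp => Ev.imp fun sq => ?_
    obtain ⟨a1, a2, sa, sb⟩ := red_spec M _ p.1 q.1 le_rfl hpq
    obtain ⟨b1, b2, sc, sd⟩ := red_spec M _ p'.1 q'.1 le_rfl hpq'
    have t1 := (sa.mul sp).mul sc.inv
    have t2 := (sb.mul sq).mul sd.inv
    obtain ⟨π, hπ, sπp, sπq⟩ := exists_perm M a1 a2 b1 b2
      ⟨fun e => t1.unique (e ▸ t2), fun e => t1.unique_left (e ▸ t2)⟩
    obtain ⟨η, hη, eη⟩ := fixator hM b1 b2
      (σ := (ev M (red p'.1 q'.1).1)⁻¹ * (ev M (FreeGroup.of s) * ev M (red p.1 q.1).1) *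
        (ev M π)⁻¹)
      (mul_mem (mul_mem (inv_mem (ev_mem M _)) (mul_mem (ev_mem M _) (ev_mem M _)))
        (inv_mem (ev_mem M _)))
      (sπp.inv.mul t1) (sπq.inv.mul t2)
    refine (Ev.rel (a := FreeGroup.of s * (red p.1 q.1).1)
      (b := (red p'.1 q'.1).1 * η * π) ?_).mono fun G _ f hf => ⟨η, hη, π, hπ, sπp, sπq, hf⟩
    rw [map_mul, map_mul, map_mul, eη]
    group
  have h3 : Ev M fun _ _ f => ∀ (p q : Wd 4), p.1.length = 4 → q.1.length = 4 → Apart p.1 q.1 →
      f (base p.1 q.1) =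
        f (Fw (p.1 ++ [false]) (q.1 ++ [false]) * Fw (p.1 ++ [true]) (q.1 ++ [true])) := by
    refine Ev.all fun p => Ev.all fun q => Ev.imp fun a => Ev.imp fun b => Ev.imp fun h =>
      Ev.rel ?_
    rw [map_mul, ev_base M (by omega) (by omega) h, ev_Fw (by simp; omega) (by simp; omega)
      (h.append _ _), ev_Fw (by simp; omega) (by simp; omega) (h.append _ _)]
    exact (sw_split h).symm
  have h4 : Ev M fun _ _ f => ∀ s : Gen, ∃ z ∈ Subgroup.closure
      {z | ∃ u v : List Bool, 4 ≤ u.length ∧ 4 ≤ v.length ∧ Apart u v ∧ z = Fw u v},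
      f (FreeGroup.of s) = f z := by
    refine Ev.all fun s => ?_
    obtain ⟨z, hz, e⟩ := exists_gens_word hM _ (ev_mem M (FreeGroup.of s))
    exact (Ev.rel e.symm).mono fun G _ f hf => ⟨z, hz, hf⟩
  have h5 : Ev M fun _ _ f => ∀ s : Gen, ∃ z ∈ commutator FW, f (FreeGroup.of s) = f z := by
    refine Ev.all fun s => ?_
    obtain ⟨z, hz, e⟩ := exists_comm_word hM (evV M (FreeGroup.of s))
    exact (Ev.rel (congrArg Subtype.val e).symm).mono fun G _ f hf => ⟨z, hz, hf⟩
  refine ((((h1.and h2).and h3).and h4).and h5).mono fun G _ f ⟨⟨⟨⟨a, b⟩, c⟩, d⟩, e⟩ =>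
    ⟨fun s u v u' v' hu hv hu' hv' h su sv => ?_, fun s p q p' q' hp hq hp' hq' =>
      b s ⟨p, hp⟩ ⟨q, hq⟩ ⟨p', hp'⟩ ⟨q', hq'⟩, fun p q hp hq h => ?_, d, e⟩
  · rw [← map_inv, ← map_mul, ← map_mul]
    exact a s ⟨u, hu.le⟩ ⟨v, hv.le⟩ ⟨u', hu'.le⟩ ⟨v', hv'.le⟩ hu hv hu' hv' h su sv
  · rw [← map_mul]
    exact c ⟨p, hp.le⟩ ⟨q, hq.le⟩ hp hq h

/-- The kernel of the evaluation is normally generated by finitely many relations. -/
theorem exists_rels (hM : Trivial M) :
    ∃ R : Finset FW, Subgroup.normalClosure (R : Set FW) = (evV M).ker := by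
  obtain ⟨R, hR, hgood⟩ := ev_good hM
  let N := Subgroup.normalClosure (R : Set FW)
  have hle : N ≤ (evV M).ker := Subgroup.normalClosure_le_normal fun r hr =>
    MonoidHom.mem_ker.2 (Subtype.ext (hR r hr))
  refine ⟨R, le_antisymm hle fun z hz => ?_⟩
  have hg := hgood (FW ⧸ N) (QuotientGroup.mk' N) fun r hr =>
    (QuotientGroup.eq_one_iff r).2 (Subgroup.subset_normalClosure hr)
  have hsurj := QuotientGroup.mk'_surjective N
  let π : FW ⧸ N →* ↥(swapGroup M) := QuotientGroup.lift N (evV M) hle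
  have hπ : Function.Surjective π :=
    QuotientGroup.lift_surjective_of_surjective N _ (evV_surjective hM) hle
  have hc : Schur.CentralKer π := by
    intro k hk
    obtain ⟨x, rfl⟩ := hsurj k
    exact hg.central hsurj (congrArg Subtype.val (MonoidHom.mem_ker.1 hk : evV M x = 1))
  have hb := bijective_of_centralKer (swapGroup_schurPerfect M) (hg.perfect_group hsurj) π hπ hc
  exact (QuotientGroup.eq_one_iff z).1
    (hb.1 (show π (QuotientGroup.mk' N z) = π 1 by rw [map_one]; exact MonoidHom.mem_ker.1 hz))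

/-- A swap group with trivial coefficients is finitely presented. -/
theorem isFinitelyPresented (hM : Trivial M) : Group.IsFinitelyPresented ↥(swapGroup M) := by
  obtain ⟨R, hR⟩ := exists_rels hM
  exact Group.IsFinitelyPresented.of_surjective (evV M) (evV_surjective hM)
    ⟨R, R.finite_toSet, hR⟩

/-- Generators and defining relators of a swap group with trivial coefficients. -/
theorem exists_presentation (hM : Trivial M) :
    ∃ (m : ℕ) (vgen : Fin m → ↥(swapGroup M)) (vrels : Finset (FreeGroup (Fin m))),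
      Subgroup.closure (Set.range vgen) = ⊤ ∧
        Subgroup.normalClosure (vrels : Set (FreeGroup (Fin m))) =
          (FreeGroup.lift vgen).ker := by
  obtain ⟨m, φ, hφ, R, hR, hker⟩ := (isFinitelyPresented hM).out
  have e : FreeGroup.lift (fun i => φ (FreeGroup.of i)) = φ :=
    FreeGroup.ext_hom _ _ fun i => FreeGroup.lift_apply_of
  refine ⟨m, fun i => φ (FreeGroup.of i), hR.toFinset, ?_, ?_⟩
  · rw [← FreeGroup.range_lift_eq_closure, e]
    exact MonoidHom.range_eq_top.2 hφ
  · rw [Set.Finite.coe_toFinset, e]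
    exact hker

end Vale.Agent.P193.VFP
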