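import Vale.Agent.P193.Full.Injective

/-! Prefix maps of swaps, for the finite presentation of a swap group with trivial coefficients
(P193). -/

open Classical

noncomputable section

namespace Vale.Agent.P193.VFP

universe u

variable {X : Type u} {H : Halving X} (M : Coeff H)

/-- The coefficient monoid contains nothing but the empty graph and the identity. -/
def Trivial : Prop := ∀ m, M.mem m → m = ∅ ∨ m = gid Set.univ

variable {M}

variable (H) in
/-- `σ` carries the cylinder of `v` prefix-wise onto the cylinder of `w`. -/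
def Sends (σ : Equiv.Perm X) (v w : List Bool) : Prop := ∀ x, σ (H.pre v x) = H.pre w x

theorem sends_one (v : List Bool) : Sends H 1 v v := fun _ => rfl

theorem Sends.mul {σ π : Equiv.Perm X} {u v w : List Bool} (hπ : Sends H π u v)
    (hσ : Sends H σ v w) : Sends H (σ * π) u w := fun x => by rw [Equiv.Perm.mul_apply, hπ, hσ]

theorem Sends.inv {σ : Equiv.Perm X} {v w : List Bool} (h : Sends H σ v w) :
    Sends H σ⁻¹ w v := fun x => Equiv.Perm.inv_eq_iff_eq.2 (h x).symm

theorem Sends.extend {σ : Equiv.Perm X} {v w : List Bool} (h : Sends H σ v w) (r : List Bool) :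
    Sends H σ (v ++ r) (w ++ r) := fun x => by rw [pre_append, h, pre_append]

theorem apart_of_len {v w : List Bool} (hl : v.length = w.length) (h : v ≠ w) : Apart v w :=
  ⟨fun e => h (e.eq_of_length hl), fun e => h (e.eq_of_length hl.symm).symm⟩

variable [Nonempty X]

theorem word_inj {v w : List Bool} (h : ∀ x, H.pre v x = H.pre w x) : v = w := by
  have key : ∀ {v w : List Bool}, v.length ≤ w.length → (∀ x, H.pre v x = H.pre w x) → v = w := by
    intro v w hl h
    obtain ⟨x⟩ := ‹Nonempty X›
    obtain ⟨r, rfl, -⟩ := pre_eq_prefix hl (h x)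
    cases r with
    | nil => rw [List.append_nil]
    | cons c r =>
      have hf := h (H.pre [!c] x)
      rw [pre_append] at hf
      have := congrArg (fun z => (H.cons.symm z).1) (pre_injective v hf)
      simp [Halving.pre] at this
  rcases le_total v.length w.length with hl | hl
  · exact key hl h
  · exact (key hl fun x => (h x).symm).symm

theorem Sends.unique {σ : Equiv.Perm X} {v w w' : List Bool} (h : Sends H σ v w)
    (h' : Sends H σ v w') : w = w' :=
  word_inj fun x => (h x).symm.trans (h' x)

theorem Sends.unique_left {σ : Equiv.Perm X} {v v' w : List Bool} (h : Sends H σ v w)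
    (h' : Sends H σ v' w) : v = v' :=
  h.inv.unique h'.inv

theorem apart_of_incomp {v w : List Bool} (h : Incomp H v w) : Apart v w := by
  obtain ⟨x⟩ := ‹Nonempty X›
  constructor
  · rintro ⟨r, rfl⟩
    exact h (H.pre r x) x (pre_append v r x).symm
  · rintro ⟨r, rfl⟩
    exact h x (H.pre r x) (pre_append w r x)

theorem Sends.apart {σ : Equiv.Perm X} {v v' w w' : List Bool} (h : Sends H σ v v')
    (h' : Sends H σ w w') (ha : Apart v w) : Apart v' w' :=
  apart_of_incomp fun x y e => ha.incomp x y (σ.injective (by rw [h, h', e]))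

variable (M)

/-- The swap of two cylinders. -/
def sw {a b : List Bool} (h : Apart a b) : Equiv.Perm X :=
  swapPerm (simpleBis (M := M) h M.one_mem)

variable {M}
variable {a b : List Bool} (h : Apart a b)

omit [Nonempty X] in
theorem sw_mem : sw M h ∈ swapGroup M := Subgroup.subset_closure ⟨_, rfl⟩

omit [Nonempty X] in
theorem sw_left : Sends H (sw M h) a b := fun _ => swap_fwd _ (piece_mem ⟨rfl, trivial⟩)

omit [Nonempty X] in
theorem sw_right : Sends H (sw M h) b a := fun _ => swap_bwd _ (piece_mem ⟨rfl, trivial⟩)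

omit [Nonempty X] in
theorem sw_fix {w : List Bool} (ha : Apart w a) (hb : Apart w b) : Sends H (sw M h) w w := by
  intro x
  refine swap_fix _ fun hs => ?_
  rcases supp_piece hs with ⟨y, -, e⟩ | ⟨y, -, e⟩
  · exact ha.incomp _ _ e
  · exact hb.incomp _ _ e

omit [Nonempty X] in
theorem sw_sends {v : List Bool} (hv : a.length ≤ v.length ∧ b.length ≤ v.length) :
    ∃ v', Sends H (sw M h) v v' ∧ v.length ≤ v'.length + max a.length b.length := by
  by_cases ha : a <+: v
  · obtain ⟨r, rfl⟩ := ha
    exact ⟨b ++ r, (sw_left h).extend r, by simp only [List.length_append]; omega⟩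
  by_cases hb : b <+: v
  · obtain ⟨r, rfl⟩ := hb
    exact ⟨a ++ r, (sw_right h).extend r, by simp only [List.length_append]; omega⟩
  refine ⟨v, sw_fix h ⟨fun e => ha ?_, ha⟩ ⟨fun e => hb ?_, hb⟩, by omega⟩
  · rw [e.eq_of_length (le_antisymm e.length_le hv.1)]
  · rw [e.eq_of_length (le_antisymm e.length_le hv.2)]

omit [Nonempty X] in
theorem sw_conj {σ : Equiv.Perm X} {a' b' : List Bool} (ha : Sends H σ a a')
    (hb : Sends H σ b b') (h' : Apart a' b') : σ * sw M h * σ⁻¹ = sw M h' := by
  refine swap_conj σ _ _ ?_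
  simp only [simpleBis, piece, Set.image_image]
  refine Set.image_congr fun p _ => ?_
  rw [ha, hb]

omit [Nonempty X] in
theorem sw_split : sw M (h.append [false] [false]) * sw M (h.append [true] [true]) = sw M h := by
  have e := congrArg (schemaHom M) (tau_split h M.one_mem)
  simpa [schemaHom_tau, sw] using e

omit [Nonempty X] in
theorem sw_symm : sw M h.symm = sw M h := by
  refine swap_ginv _ _ ?_
  show piece H a b (gid Set.univ) = ginv (piece H b a (gid Set.univ))
  rw [ginv_piece]
  congr 1
  ext ⟨x, y⟩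
  exact ⟨fun e => ⟨e.1.symm, trivial⟩, fun e => ⟨e.1.symm, trivial⟩⟩

variable (hM : Trivial M)
include hM

/-- Every element is a prefix map on deep cylinders. -/
theorem exists_code {σ : Equiv.Perm X} (hσ : σ ∈ swapGroup M) (n : ℕ) :
    ∃ N, n ≤ N ∧ ∀ v : List Bool, N ≤ v.length → ∃ w, n ≤ w.length ∧ Sends H σ v w := by
  obtain ⟨N, l, hN, hl, he⟩ := reg_normal (mem_swapGroup_iff.1 hσ) n
  refine ⟨N, hN, fun v hv => ?_⟩
  obtain ⟨x₀⟩ := ‹Nonempty X›
  have hg : (H.pre (v.take N) x₀, σ (H.pre (v.take N) x₀)) ∈ unionOf H l := by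
    rw [← he]; rfl
  obtain ⟨⟨v', w, m⟩, ht, hp⟩ := hg
  obtain ⟨hm, hlen, hw⟩ := hl _ ht
  obtain ⟨x, y, hxy, e⟩ := mem_piece.1 hp
  simp only [Prod.mk.injEq] at e hm hlen hw hxy
  obtain ⟨rfl, -⟩ := pre_inj_len (by simp [hlen, hv]) e.1
  rcases hM m hm with rfl | rfl
  · exact absurd hxy (Set.notMem_empty _)
  refine ⟨w ++ v.drop N, by simp only [List.length_append]; omega, ?_⟩
  have hs : Sends H σ (v.take N) w := fun z => by
    have : (H.pre (v.take N) z, H.pre w z) ∈ graphOf σ := by
      rw [he]; exact ⟨_, ht, piece_mem ⟨rfl, trivial⟩⟩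
    exact this
  simpa using hs.extend (v.drop N)

/-- An element fixing the cylinder of `1` acts below the cylinder of `0`. -/
theorem exists_lp {σ : Equiv.Perm X} (hσ : σ ∈ swapGroup M)
    (hfix : ∀ x, σ (H.pre [true] x) = H.pre [true] x) :
    ∃ g ∈ swapGroup M, σ = lp H [false] g := by
  have key : ∀ τ : Equiv.Perm X, (∀ x, τ (H.pre [true] x) = H.pre [true] x) →
      ∀ y, ∃ z, τ (H.pre [false] y) = H.pre [false] z := by
    intro τ hτ y
    obtain ⟨v, z, hv, e⟩ := pre_surj H 1 (τ (H.pre [false] y))
    match v, hv with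
    | [false], _ => exact ⟨z, e⟩
    | [true], _ => exact absurd (τ.injective (e.trans (hτ z).symm)) (incomp_bits _ _)
  have hfix' : ∀ x, σ⁻¹ (H.pre [true] x) = H.pre [true] x := fun x =>
    Equiv.Perm.inv_eq_iff_eq.2 (hfix x).symm
  choose f hf using key σ hfix
  choose f' hf' using key σ⁻¹ hfix'
  let g : Equiv.Perm X :=
    ⟨f, f', fun y => pre_injective [false] (by rw [← hf', ← hf]; exact σ.symm_apply_apply _),
      fun y => pre_injective [false] (by rw [← hf, ← hf']; exact σ.apply_symm_apply _)⟩
  have hg : ∀ y, σ (H.pre [false] y) = H.pre [false] (g y) := hf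
  refine ⟨g, ?_, ?_⟩
  · obtain ⟨N, -, hN⟩ := exists_code hM hσ 1
    have hw : ∀ v : List Bool, v.length = N → ∃ w, Sends H g v w := by
      intro v hv
      obtain ⟨w, hw1, hw⟩ := hN ([false] ++ v) (by simp; omega)
      cases w with
      | nil => simp at hw1
      | cons d w =>
        obtain ⟨x₀⟩ := ‹Nonempty X›
        have e := hw x₀
        rw [pre_append, hg] at e
        obtain rfl : d = false := (congrArg Prod.fst (H.cons.injective e)).symm
        refine ⟨w, fun x => pre_injective (H := H) [false] ?_⟩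
        rw [← hg, ← pre_append, hw]
        rfl
    choose w hw using hw
    refine mem_swapGroup_of_pieces
      ((words N).attach.map fun v => (v.1, w v.1 (mem_words.1 v.2), gid Set.univ)) ?_ ?_
    · intro t ht
      obtain ⟨v, -, rfl⟩ := List.mem_map.1 ht
      exact M.one_mem
    · intro x y
      obtain ⟨v, z, hv, rfl⟩ := pre_surj H N x
      rw [hw v hv z]
      constructor
      · rintro rfl
        exact ⟨_, List.mem_map.2 ⟨⟨v, mem_words.2 hv⟩, List.mem_attach _ _, rfl⟩,
          piece_mem ⟨rfl, trivial⟩⟩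
      · rintro ⟨t, ht, hp⟩
        obtain ⟨v', -, rfl⟩ := List.mem_map.1 ht
        obtain ⟨a, c, ⟨hac, -⟩, e⟩ := mem_piece.1 hp
        simp only [Prod.mk.injEq] at e hac
        subst hac
        obtain ⟨rfl, rfl⟩ := pre_inj_len (hv.trans (mem_words.1 v'.2).symm) e.1
        exact e.2.symm
  · ext x
    by_cases hx : ∃ y, x = H.pre [false] y
    · obtain ⟨y, rfl⟩ := hx
      rw [lp_pre, hg]
    · rw [lp_out _ _ hx]
      obtain ⟨v, z, hv, rfl⟩ := pre_surj H 1 x
      match v, hv with
      | [false], _ => exact absurd ⟨z, rfl⟩ hx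
      | [true], _ => exact hfix z

omit [Nonempty X] in
/-- Deep swaps generate. -/
theorem swapGroup_le_deep (n : ℕ) : swapGroup M ≤ Subgroup.closure
    {σ | ∃ u v : List Bool, ∃ h : Apart u v, n ≤ u.length ∧ n ≤ v.length ∧ σ = sw M h} := by
  set S := {σ | ∃ u v : List Bool, ∃ h : Apart u v, n ≤ u.length ∧ n ≤ v.length ∧ σ = sw M h}
  have deep : ∀ k (u v : List Bool) (h : Apart u v), n ≤ k + u.length → n ≤ k + v.length →
      sw M h ∈ Subgroup.closure S := by
    intro k
    induction k with
    | zero => intro u v h hu hv; exact Subgroup.subset_closure ⟨u, v, h, by omega, by omega, rfl⟩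
    | succ k ih =>
      intro u v h hu hv
      rw [← sw_split h]
      exact mul_mem (ih _ _ _ (by simp; omega) (by simp; omega))
        (ih _ _ _ (by simp; omega) (by simp; omega))
  rw [← schemaHom_range, MonoidHom.range_eq_map, ← closure_simples, MonoidHom.map_closure,
    Subgroup.closure_le]
  rintro _ ⟨_, ⟨c, v, w, m, hm, rfl⟩, rfl⟩
  rw [schemaHom_tau, SetLike.mem_coe]
  rcases hM m hm with rfl | rfl
  · convert one_mem (Subgroup.closure S) using 1
    ext x
    refine swap_fix _ fun hs => ?_
    rcases supp_piece hs with ⟨_, ⟨_, e⟩, -⟩ | ⟨_, ⟨_, e⟩, -⟩ <;> exact e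
  · exact deep n _ _ _ (by omega) (by omega)

end Vale.Agent.P193.VFP
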