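import Vale.Agent.P193.Full.VFP.Cov

/-! In a group satisfying the relations the swaps of deep pairs generate and the kernel of the
evaluation is central (P193). -/

open Classical

noncomputable section

namespace Vale.Agent.P193.VFP

universe u

variable {X : Type u} {H : Halving X} [Nonempty X] {M : Coeff H}
  {G : Type} [Group G] {f : FW →* G} (hf : Good M f)
include hf

theorem Good.split_all {u v : List Bool} (hu : 4 ≤ u.length) (hv : 4 ≤ v.length) (h : Apart u v) :
    f (Fw u v) = f (Fw (u ++ [false]) (v ++ [false])) * f (Fw (u ++ [true]) (v ++ [true])) := by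
  have hpr : Pr u v := ⟨hu, hv, Or.inr h⟩
  obtain ⟨a, b, c, d⟩ := red_spec M _ u v le_rfl hpr
  have hab : Apart (red u v).2.1 (red u v).2.2 := c.inv.apart d.inv h
  have key : ∀ e : List Bool, f (Fw (u ++ e) (v ++ e)) = f (red u v).1 *
      f (Fw ((red u v).2.1 ++ e) ((red u v).2.2 ++ e)) * (f (red u v).1)⁻¹ := fun e =>
    (hf.cov _).chain _ u v e e le_rfl hpr (h.append e e) le_rfl
  have e0 := key []
  simp only [List.append_nil, Fw_four a b] at e0
  rw [e0, hf.split _ _ a b hab, key [false], key [true]]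
  group

/-- Swaps of deep pairs lie in the group generated by swaps of deeper pairs. -/
theorem Good.deep (n : ℕ) : ∀ u v : List Bool, 4 ≤ u.length → 4 ≤ v.length → Apart u v →
    f (Fw u v) ∈ Subgroup.closure {g | ∃ x y : List Bool, n ≤ x.length ∧ n ≤ y.length ∧
      4 ≤ x.length ∧ 4 ≤ y.length ∧ Apart x y ∧ g = f (Fw x y)} := by
  suffices ∀ k, ∀ u v : List Bool, n ≤ k + u.length → n ≤ k + v.length → 4 ≤ u.length →
      4 ≤ v.length → Apart u v → f (Fw u v) ∈ Subgroup.closure {g | ∃ x y : List Bool,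
        n ≤ x.length ∧ n ≤ y.length ∧ 4 ≤ x.length ∧ 4 ≤ y.length ∧ Apart x y ∧ g = f (Fw x y)} from
    fun u v hu hv h => this n u v (by omega) (by omega) hu hv h
  intro k
  induction k with
  | zero =>
    intro u v h1 h2 hu hv h
    exact Subgroup.subset_closure ⟨u, v, by omega, by omega, hu, hv, h, rfl⟩
  | succ k ih =>
    intro u v h1 h2 hu hv h
    rw [hf.split_all hu hv h]
    exact mul_mem (ih _ _ (by simp; omega) (by simp; omega) (by simp; omega) (by simp; omega)
        (h.append _ _))
      (ih _ _ (by simp; omega) (by simp; omega) (by simp; omega) (by simp; omega) (h.append _ _))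

/-- Every word conjugates deep swaps as it moves deep pairs. -/
theorem Good.global (z : FW) : ∃ K, ∀ u v : List Bool, K ≤ u.length → K ≤ v.length → Apart u v →
    ∃ u' v' : List Bool, Sends H (ev M z) u u' ∧ Sends H (ev M z) v v' ∧
      u.length ≤ u'.length + K ∧ v.length ≤ v'.length + K ∧
      f z * f (Fw u v) * (f z)⁻¹ = f (Fw u' v') := by
  have gen : ∀ (s : Gen) (u v : List Bool), 10 ≤ u.length → 10 ≤ v.length → Apart u v →
      ∃ u' v' : List Bool, Sends H (ev M (FreeGroup.of s)) u u' ∧
        Sends H (ev M (FreeGroup.of s)) v v' ∧ u.length ≤ u'.length + 10 ∧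
        v.length ≤ v'.length + 10 ∧ 4 ≤ u'.length ∧ 4 ≤ v'.length := by
    intro s u v hu hv _
    have hs := s.2
    obtain ⟨u', su, lu⟩ := sw_sends (H := H) (M := M) s.2.2.2 (v := u) ⟨by omega, by omega⟩
    obtain ⟨v', sv, lv⟩ := sw_sends (H := H) (M := M) s.2.2.2 (v := v) ⟨by omega, by omega⟩
    rw [← ev_of M s] at su sv
    exact ⟨u', v', su, sv, by omega, by omega, by omega, by omega⟩
  induction z using FreeGroup.induction_on with
  | C1 => exact ⟨0, fun u v _ _ _ => ⟨u, v, by rw [map_one]; exact sends_one _,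
      by rw [map_one]; exact sends_one _, by omega, by omega, by simp⟩⟩
  | of s =>
    refine ⟨10, fun u v hu hv h => ?_⟩
    obtain ⟨u', v', su, sv, lu, lv, hu', hv'⟩ := gen s u v hu hv h
    exact ⟨u', v', su, sv, lu, lv, hf.cov (u.length + v.length + u'.length + v'.length) s u v u' v'
      (by omega) (by omega) hu' hv' h (by omega) (by omega) su sv⟩
  | inv_of s _ =>
    refine ⟨10, fun u v hu hv h => ?_⟩
    obtain ⟨u', v', su, sv, lu, lv, hu', hv'⟩ := gen s u v hu hv h
    refine ⟨u', v', ?_, ?_, lu, lv, ?_⟩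
    · rw [map_inv, gen_invol]; exact su
    · rw [map_inv, gen_invol]; exact sv
    · rw [map_inv, inv_inv]
      exact (hf.cov (u.length + v.length + u'.length + v'.length)).back s (by omega) (by omega)
        hu' hv' h (by omega) (by omega) su sv
  | mul x y hx hy =>
    obtain ⟨K₁, h₁⟩ := hx
    obtain ⟨K₂, h₂⟩ := hy
    refine ⟨K₁ + K₂, fun u v hu hv h => ?_⟩
    obtain ⟨u₁, v₁, su₁, sv₁, lu₁, lv₁, e₁⟩ := h₂ u v (by omega) (by omega) h
    obtain ⟨u₂, v₂, su₂, sv₂, lu₂, lv₂, e₂⟩ :=
      h₁ u₁ v₁ (by omega) (by omega) (su₁.apart sv₁ h)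
    refine ⟨u₂, v₂, ?_, ?_, by omega, by omega, ?_⟩
    · rw [map_mul]; exact su₁.mul su₂
    · rw [map_mul]; exact sv₁.mul sv₂
    · rw [map_mul, ← e₂, ← e₁]; group

/-- Words of trivial value are central. -/
theorem Good.central (hsurj : Function.Surjective f) {z : FW} (hz : ev M z = 1) :
    f z ∈ Subgroup.center G := by
  obtain ⟨K, hK⟩ := hf.global z
  have hgen : ∀ w ∈ Subgroup.closure
      {z | ∃ u v : List Bool, 4 ≤ u.length ∧ 4 ≤ v.length ∧ Apart u v ∧ z = Fw u v},
      f w ∈ Subgroup.centralizer {f z} := by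
    intro w hw
    revert w
    change Subgroup.closure _ ≤ (Subgroup.centralizer {f z}).comap f
    rw [Subgroup.closure_le]
    rintro _ ⟨u, v, hu, hv, h, rfl⟩
    have hle : Subgroup.closure {g | ∃ x y : List Bool, K ≤ x.length ∧ K ≤ y.length ∧
        4 ≤ x.length ∧ 4 ≤ y.length ∧ Apart x y ∧ g = f (Fw x y)} ≤
        Subgroup.centralizer {f z} := by
      rw [Subgroup.closure_le]
      rintro _ ⟨x, y, hx, hy, -, -, hxy, rfl⟩
      obtain ⟨x', y', sx, sy, -, -, e⟩ := hK x y hx hy hxy
      rw [hz] at sx sy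
      obtain rfl := sx.unique (sends_one x)
      obtain rfl := sy.unique (sends_one y)
      rw [SetLike.mem_coe, Subgroup.mem_centralizer_singleton_iff]
      exact (mul_inv_eq_iff_eq_mul.1 e).symm
    exact hle (hf.deep K u v hu hv h)
  rw [Subgroup.mem_center_iff]
  intro g
  obtain ⟨x, rfl⟩ := hsurj g
  refine (Subgroup.mem_centralizer_singleton_iff.1 ?_)
  induction x using FreeGroup.induction_on with
  | C1 => rw [map_one]; exact one_mem _
  | of s =>
    obtain ⟨w, hw, e⟩ := hf.gens s
    rw [e]; exact hgen w hw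
  | inv_of s ih => rw [map_inv]; exact inv_mem ih
  | mul x y hx hy => rw [map_mul]; exact mul_mem hx hy

omit [Nonempty X] in
theorem Good.perfect_group (hsurj : Function.Surjective f) : commutator G = ⊤ := by
  rw [eq_top_iff]
  intro g hg
  clear hg
  obtain ⟨x, rfl⟩ := hsurj g
  induction x using FreeGroup.induction_on with
  | C1 => rw [map_one]; exact one_mem _
  | of s =>
    obtain ⟨w, hw, e⟩ := hf.perfect s
    rw [e]
    have hle : (commutator FW).map f ≤ commutator G := by
      rw [commutator_def, Subgroup.map_commutator, commutator_def]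
      exact Subgroup.commutator_mono le_top le_top
    exact hle ⟨w, hw, rfl⟩
  | inv_of s ih => rw [map_inv]; exact inv_mem ih
  | mul x y hx hy => rw [map_mul]; exact mul_mem hx hy

end Vale.Agent.P193.VFP
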