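import Vale.Agent.P193.Full.VFP.Fix

/-! Finitely many true relations among short swaps make conjugation act on the swaps of deep
pairs as it acts on the pairs (P193). -/

open Classical

noncomputable section

namespace Vale.Agent.P193.VFP

universe u

variable {X : Type u} {H : Halving X} (M : Coeff H)

/-- The finitely many relations. -/
structure Good {G : Type} [Group G] (f : FW →* G) : Prop where
  level : ∀ (s : Gen) (u v u' v' : List Bool), u.length = 4 → v.length = 4 → u'.length = 4 →
    v'.length = 4 → Apart u v → Sends H (ev M (FreeGroup.of s)) u u' →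
    Sends H (ev M (FreeGroup.of s)) v v' →
    f (FreeGroup.of s) * f (base u v) * (f (FreeGroup.of s))⁻¹ = f (base u' v')
  term : ∀ (s : Gen) (p q p' q' : List Bool), p.length ≤ 20 → q.length ≤ 20 → p'.length ≤ 20 →
    q'.length ≤ 20 → Pr p q → Pr p' q' → Sends H (ev M (FreeGroup.of s)) p p' →
    Sends H (ev M (FreeGroup.of s)) q q' →
    ∃ η ∈ Subgroup.closure (avoid (red p' q').2.1 (red p' q').2.2),
      ∃ π ∈ Subgroup.closure lvl, Sends H (ev M π) (red p q).2.1 (red p' q').2.1 ∧
        Sends H (ev M π) (red p q).2.2 (red p' q').2.2 ∧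
        f (FreeGroup.of s * (red p q).1) = f ((red p' q').1 * η * π)
  split : ∀ p q : List Bool, p.length = 4 → q.length = 4 → Apart p q →
    f (base p q) = f (Fw (p ++ [false]) (q ++ [false])) * f (Fw (p ++ [true]) (q ++ [true]))
  gens : ∀ s : Gen, ∃ z ∈ Subgroup.closure
      {z | ∃ u v : List Bool, 4 ≤ u.length ∧ 4 ≤ v.length ∧ Apart u v ∧ z = Fw u v},
    f (FreeGroup.of s) = f z
  perfect : ∀ s : Gen, ∃ z ∈ commutator FW, f (FreeGroup.of s) = f z

/-- Covariance on pairs of bounded total length. -/
def Cov {G : Type} [Group G] (f : FW →* G) (N : ℕ) : Prop :=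
  ∀ (s : Gen) (u v u' v' : List Bool), 4 ≤ u.length → 4 ≤ v.length → 4 ≤ u'.length →
    4 ≤ v'.length → Apart u v → u.length + v.length ≤ N → u'.length + v'.length ≤ N →
    Sends H (ev M (FreeGroup.of s)) u u' → Sends H (ev M (FreeGroup.of s)) v v' →
    f (FreeGroup.of s) * f (Fw u v) * (f (FreeGroup.of s))⁻¹ = f (Fw u' v')

variable {M}

theorem gen_invol (s : Gen) : (ev M (FreeGroup.of s))⁻¹ = ev M (FreeGroup.of s) := by
  rw [ev_of]; rfl

theorem Sends.back {s : Gen} {u v : List Bool} (h : Sends H (ev M (FreeGroup.of s)) u v) :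
    Sends H (ev M (FreeGroup.of s)) v u :=
  gen_invol (M := M) s ▸ h.inv

theorem move_append {P S x r : List Bool} (hP : P.length = 5) (hx : 5 ≤ x.length ∨ r = []) :
    move P S (x ++ r) = move P S x ++ r := by
  rcases hx with hx | rfl
  · unfold move
    by_cases h : P <+: x
    · rw [if_pos h, if_pos (h.trans (List.prefix_append _ _)), List.drop_append_of_le_length
        (by omega), List.append_assoc]
    · rw [if_neg h, if_neg]
      exact fun e => h (List.prefix_of_prefix_length_le e (List.prefix_append _ _) (by omega))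
  · simp

theorem pop_append {p q r t : List Bool} (hp4 : 4 ≤ p.length) (hq4 : 4 ≤ q.length)
    (hp : 5 ≤ p.length ∨ r = [])
    (h : 4 < p.length ∨ 4 < q.length) :
    popP (p ++ r) (q ++ t) = popP p q ∧ popS (p ++ r) (q ++ t) = popS p q := by
  refine ⟨?_, ?_⟩
  · unfold popP sel
    by_cases h1 : 4 < p.length
    · rw [if_pos h1, if_pos (by simp; omega), List.take_append_of_le_length (by omega)]
    · obtain rfl : r = [] := hp.resolve_left (by omega)
      have h2 := h.resolve_left h1
      rw [List.append_nil, if_neg h1, if_neg h1, List.take_append_of_le_length (by omega)]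
  · unfold popS
    rw [List.take_append_of_le_length hp4, List.take_append_of_le_length hq4]

variable [Nonempty X] {G : Type} [Group G] {f : FW →* G}

theorem Cov.back {N : ℕ} (hc : Cov M f N) (s : Gen) {u v u' v' : List Bool} (hu : 4 ≤ u.length)
    (hv : 4 ≤ v.length) (hu' : 4 ≤ u'.length) (hv' : 4 ≤ v'.length) (h : Apart u v)
    (h1 : u.length + v.length ≤ N) (h2 : u'.length + v'.length ≤ N)
    (su : Sends H (ev M (FreeGroup.of s)) u u') (sv : Sends H (ev M (FreeGroup.of s)) v v') :
    (f (FreeGroup.of s))⁻¹ * f (Fw u v) * f (FreeGroup.of s) = f (Fw u' v') := by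
  rw [← hc s u' v' u v hu' hv' hu hv (su.apart sv h) h2 h1 su.back sv.back]
  group

/-- Reducing the prefixes of a pair, given covariance. -/
theorem Cov.chain {K : ℕ} (hc : Cov M f K) : ∀ n, ∀ p q r t : List Bool,
    p.length + q.length ≤ n → Pr p q → Apart (p ++ r) (q ++ t) →
    (p ++ r).length + (q ++ t).length ≤ K →
    f (Fw (p ++ r) (q ++ t)) = f (red p q).1 *
      f (Fw ((red p q).2.1 ++ r) ((red p q).2.2 ++ t)) * (f (red p q).1)⁻¹ := by
  intro n
  induction n with
  | zero => intro p q r t hn h; have := h.1; omega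
  | succ n ih =>
    intro p q r t hn hpq hap hK
    by_cases h : 4 < p.length ∨ 4 < q.length
    · obtain ⟨sp, sq⟩ := pop_sends (M := M) hpq h
      have hP := popP_len h
      have hS := (popS_spec p q).1
      have hl := pop_lt h
      have hr := move_le (x := p) (P := popP p q) (S := popS p q) (by omega)
      have ht := move_le (x := q) (P := popP p q) (S := popS p q) (by omega)
      have hb := base_eq (show (popP p q).length ≤ 5 by omega)
        (show (popS p q).length ≤ 5 by omega) (pop_apart h)
      have hap' := (sp.extend r).apart (sq.extend t) hap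
      rw [red_pos h]
      have ha := move_ge (P := popP p q) (x := p) hS hpq.1
      have hb' := move_ge (P := popP p q) (x := q) hS hpq.2.1
      have hK' : (move (popP p q) (popS p q) p ++ r).length +
          (move (popP p q) (popS p q) q ++ t).length ≤ K := by
        simp only [List.length_append] at hK ⊢; omega
      rw [hb] at sp sq
      have := hpq.1
      have := hpq.2.1
      have e := hc _ _ _ _ _ (by simp; omega) (by simp; omega) (by simp; omega)
        (by simp; omega) hap' hK' hK (sp.back.extend r) (sq.back.extend t)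
      rw [← e, ih _ _ r t (by omega) (pop_Pr M hpq h) hap' hK', hb, map_mul]
      group
    · rw [red_neg h, map_one, one_mul, inv_one, mul_one]

/-- Reducing the prefixes of a pair: the first step holds by definition. -/
theorem side {N : ℕ} (hc : ∀ K < N, Cov M f K) {p q r t : List Bool} (hpq : Pr p q)
    (hp : 5 ≤ p.length ∨ r = []) (hq : 5 ≤ q.length ∨ t = []) (hap : Apart (p ++ r) (q ++ t))
    (hN : (p ++ r).length + (q ++ t).length ≤ N) :
    f (Fw (p ++ r) (q ++ t)) = f (red p q).1 *
      f (Fw ((red p q).2.1 ++ r) ((red p q).2.2 ++ t)) * (f (red p q).1)⁻¹ := by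
  by_cases h : 4 < p.length ∨ 4 < q.length
  · obtain ⟨sp, sq⟩ := pop_sends (M := M) hpq h
    obtain ⟨e1, e2⟩ := pop_append hpq.1 hpq.2.1 hp h
    have h' : 4 < (p ++ r).length ∨ 4 < (q ++ t).length := by
      simp only [List.length_append]; omega
    have hl := pop_lt h
    have hK : (move (popP p q) (popS p q) p ++ r).length +
        (move (popP p q) (popS p q) q ++ t).length < N := by
      simp only [List.length_append] at hN ⊢; omega
    rw [Fw_pos h', e1, e2, move_append (popP_len h) hp, move_append (popP_len h) hq, map_mul,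
      map_mul, (hc _ hK).chain _ _ _ r t le_rfl (pop_Pr M hpq h)
        ((sp.extend r).apart (sq.extend t) hap) le_rfl, red_pos h, map_mul, map_inv]
    group
  · rw [red_neg h, map_one, one_mul, inv_one, mul_one]

theorem Cov.lvl_conj {K : ℕ} (hc : Cov M f K) {z : FW} (hz : z ∈ Subgroup.closure lvl)
    {p q : List Bool} (hp : p.length = 4) (hq : q.length = 4) :
    ∃ p' q' : List Bool, p'.length = 4 ∧ q'.length = 4 ∧ Sends H (ev M z) p p' ∧
      Sends H (ev M z) q q' ∧ ∀ r t, Apart (p ++ r) (q ++ t) → 8 + r.length + t.length ≤ K →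
        f z * f (Fw (p ++ r) (q ++ t)) * (f z)⁻¹ = f (Fw (p' ++ r) (q' ++ t)) := by
  suffices h : ∀ ε : Bool, ∀ p q : List Bool, p.length = 4 → q.length = 4 →
      ∃ p' q' : List Bool, p'.length = 4 ∧ q'.length = 4 ∧
      Sends H (ev M (cond ε z z⁻¹)) p p' ∧ Sends H (ev M (cond ε z z⁻¹)) q q' ∧
      ∀ r t, Apart (p ++ r) (q ++ t) → 8 + r.length + t.length ≤ K →
        f (cond ε z z⁻¹) * f (Fw (p ++ r) (q ++ t)) * (f (cond ε z z⁻¹))⁻¹ =
          f (Fw (p' ++ r) (q' ++ t)) from h true p q hp hq
  induction hz using Subgroup.closure_induction with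
  | mem x hx =>
    obtain ⟨a, b, ha, hb, hab, rfl⟩ := hx
    rw [base_eq (by omega : a.length ≤ 5) (by omega : b.length ≤ 5) hab]
    set s : Gen := ⟨(a, b), show a.length ≤ 5 by omega, show b.length ≤ 5 by omega, hab⟩
    intro ε p q hp hq
    have img : ∀ x : List Bool, x.length = 4 →
        ∃ x' : List Bool, x'.length = 4 ∧ Sends H (ev M (FreeGroup.of s)) x x' := by
      intro x hx
      rw [ev_of]
      by_cases h1 : x = a
      · exact ⟨b, hb, h1.symm ▸ sw_left hab⟩
      by_cases h2 : x = b
      · exact ⟨a, ha, h2.symm ▸ sw_right hab⟩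
      exact ⟨x, hx, sw_fix hab (apart_of_len (hx.trans ha.symm) h1)
        (apart_of_len (hx.trans hb.symm) h2)⟩
    obtain ⟨p', hp', sp⟩ := img p hp
    obtain ⟨q', hq', sq⟩ := img q hq
    refine ⟨p', q', hp', hq', ?_, ?_, fun r t hap hK => ?_⟩
    · cases ε
      · simpa only [cond_false, map_inv, gen_invol] using sp
      · exact sp
    · cases ε
      · simpa only [cond_false, map_inv, gen_invol] using sq
      · exact sq
    · cases ε
      · simp only [cond_false, map_inv, inv_inv]
        exact hc.back s (by simp; omega) (by simp; omega) (by simp; omega) (by simp; omega) hap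
          (by simp; omega) (by simp; omega) (sp.extend r) (sq.extend t)
      · exact hc s _ _ _ _ (by simp; omega) (by simp; omega) (by simp; omega) (by simp; omega)
          hap (by simp; omega) (by simp; omega) (sp.extend r) (sq.extend t)
  | one =>
    intro ε p q hp hq
    have h1 : cond ε (1 : FW) 1⁻¹ = 1 := by cases ε <;> simp
    rw [h1, map_one, map_one]
    exact ⟨p, q, hp, hq, sends_one _, sends_one _, fun r t _ _ => by group⟩
  | mul x y _ _ hx hy =>
    intro ε p q hp hq
    cases ε
    · obtain ⟨p₁, q₁, hp₁, hq₁, sp₁, sq₁, e₁⟩ := hx false p q hp hq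
      obtain ⟨p₂, q₂, hp₂, hq₂, sp₂, sq₂, e₂⟩ := hy false p₁ q₁ hp₁ hq₁
      simp only [cond_false, mul_inv_rev, map_mul] at *
      refine ⟨p₂, q₂, hp₂, hq₂, sp₁.mul sp₂, sq₁.mul sq₂, fun r t hap hK => ?_⟩
      rw [← e₂ r t ((sp₁.extend r).apart (sq₁.extend t) hap) hK, ← e₁ r t hap hK]
      group
    · obtain ⟨p₁, q₁, hp₁, hq₁, sp₁, sq₁, e₁⟩ := hy true p q hp hq
      obtain ⟨p₂, q₂, hp₂, hq₂, sp₂, sq₂, e₂⟩ := hx true p₁ q₁ hp₁ hq₁
      simp only [cond_true, map_mul] at *
      refine ⟨p₂, q₂, hp₂, hq₂, sp₁.mul sp₂, sq₁.mul sq₂, fun r t hap hK => ?_⟩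
      rw [← e₂ r t ((sp₁.extend r).apart (sq₁.extend t) hap) hK, ← e₁ r t hap hK]
      group
  | inv x _ hx =>
    intro ε
    cases ε
    · simpa only [cond_false, cond_true, inv_inv] using hx true
    · simpa only [cond_false, cond_true] using hx false

omit [Nonempty X] in
theorem Cov.avoid_comm {K : ℕ} (hc : Cov M f K) {p q : List Bool} (hp : p.length = 4)
    (hq : q.length = 4) {η : FW} (hη : η ∈ Subgroup.closure (avoid p q)) {r t : List Bool}
    (hap : Apart (p ++ r) (q ++ t)) (hK : 8 + r.length + t.length ≤ K) :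
    Commute (f η) (f (Fw (p ++ r) (q ++ t))) := by
  induction hη using Subgroup.closure_induction with
  | mem x hx =>
    obtain ⟨s, ⟨ha, hb⟩, ⟨hc', hd⟩, rfl⟩ := hx
    have sp : Sends H (ev M (FreeGroup.of s)) p p := by
      rw [ev_of]; exact sw_fix _ ha.symm hb.symm
    have sq : Sends H (ev M (FreeGroup.of s)) q q := by
      rw [ev_of]; exact sw_fix _ hc'.symm hd.symm
    have e := hc s _ _ _ _ (by simp; omega) (by simp; omega) (by simp; omega) (by simp; omega)
      hap (by simp; omega) (by simp; omega) (sp.extend r) (sq.extend t)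
    exact mul_inv_eq_iff_eq_mul.1 e
  | one => rw [map_one]; exact Commute.one_left _
  | mul x y _ _ hx hy => rw [map_mul]; exact hx.mul_left hy
  | inv x _ hx => rw [map_inv]; exact hx.inv_left

theorem gen_cut (s : Gen) {u u' : List Bool} (hu : 4 ≤ u.length) (hu' : 4 ≤ u'.length)
    (h : Sends H (ev M (FreeGroup.of s)) u u') :
    ∃ p' : List Bool, u' = p' ++ u.drop 10 ∧ 4 ≤ p'.length ∧ p'.length ≤ 20 ∧
      (5 ≤ p'.length ∨ u.drop 10 = []) ∧ Sends H (ev M (FreeGroup.of s)) (u.take 10) p' := by
  have hs := s.2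
  have bound : ∀ {x x' : List Bool}, 5 ≤ x.length → Sends H (ev M (FreeGroup.of s)) x x' →
      x.length ≤ x'.length + 5 := by
    intro x x' hx hsx
    obtain ⟨x'', h1, h2⟩ := sw_sends (H := H) (M := M) s.2.2.2 (v := x)
      ⟨by omega, by omega⟩
    rw [ev_of] at hsx
    obtain rfl := hsx.unique h1
    omega
  by_cases hl : 10 ≤ u.length
  · obtain ⟨p', h1, h2⟩ := sw_sends (H := H) (M := M) s.2.2.2 (v := u.take 10)
      ⟨by rw [List.length_take]; omega, by rw [List.length_take]; omega⟩
    rw [← ev_of M s] at h1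
    have hlen : 5 ≤ p'.length := by rw [List.length_take] at h2; omega
    have := bound hlen h1.back
    rw [List.length_take] at this
    refine ⟨p', h.unique ?_, by omega, by omega, Or.inl hlen, h1⟩
    simpa using h1.extend (u.drop 10)
  · have hd : u.drop 10 = [] := List.drop_eq_nil_of_le (by omega)
    refine ⟨u', by rw [hd, List.append_nil], hu', ?_, Or.inr hd, ?_⟩
    · by_cases h5 : 5 ≤ u'.length
      · have := bound h5 h.back; omega
      · omega
    · rwa [List.take_of_length_le (by omega)]

theorem take_Pr {u v : List Bool} (hu : 4 ≤ u.length) (hv : 4 ≤ v.length) (h : Apart u v) :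
    Pr (u.take 10) (v.take 10) := by
  refine ⟨by rw [List.length_take]; omega, by rw [List.length_take]; omega, ?_⟩
  by_cases e : u.take 10 = v.take 10
  · exact Or.inl e
  refine Or.inr ⟨fun hp => ?_, fun hp => ?_⟩
  · by_cases hl : 10 ≤ u.length
    · exact e (hp.eq_of_length (le_antisymm hp.length_le
        (by simp only [List.length_take]; omega)))
    · rw [List.take_of_length_le (l := u) (by omega)] at hp
      exact h.1 (hp.trans (List.take_prefix _ _))
  · by_cases hl : 10 ≤ v.length
    · exact e (hp.eq_of_length (le_antisymm hp.length_le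
        (by simp only [List.length_take]; omega))).symm
    · rw [List.take_of_length_le (l := v) (by omega)] at hp
      exact h.2 (hp.trans (List.take_prefix _ _))

theorem Good.cov (hf : Good M f) : ∀ N, Cov M f N := by
  intro N
  induction N using Nat.strong_induction_on with
  | _ N ih =>
    intro s u v u' v' hu hv hu' hv' hap hN hN' su sv
    by_cases h8 : u.length + v.length ≤ 8 ∧ u'.length + v'.length ≤ 8
    · have a1 : u.length = 4 := by omega
      have a2 : v.length = 4 := by omega
      have a3 : u'.length = 4 := by omega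
      have a4 : v'.length = 4 := by omega
      rw [Fw_four a1 a2, Fw_four a3 a4]
      exact hf.level s u v u' v' a1 a2 a3 a4 hap su sv
    obtain ⟨p', eu, hp', hp'l, hpe', sp⟩ := gen_cut s hu hu' su
    obtain ⟨q', ev', hq', hq'l, hqe', sq⟩ := gen_cut s hv hv' sv
    have hpq := take_Pr hu hv hap
    have hpq' := hpq.map sp sq hp' hq'
    have hpe : 5 ≤ (u.take 10).length ∨ u.drop 10 = [] := by
      by_cases h : 5 ≤ u.length
      · left; rw [List.length_take]; omega
      · exact Or.inr (List.drop_eq_nil_of_le (by omega))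
    have hqe : 5 ≤ (v.take 10).length ∨ v.drop 10 = [] := by
      by_cases h : 5 ≤ v.length
      · left; rw [List.length_take]; omega
      · exact Or.inr (List.drop_eq_nil_of_le (by omega))
    obtain ⟨a1, a2, -, -⟩ := red_spec M _ _ _ le_rfl hpq
    obtain ⟨b1, b2, sc, sd⟩ := red_spec M _ _ _ le_rfl hpq'
    obtain ⟨η, hη, π, hπ, sπp, sπq, erel⟩ := hf.term s _ _ _ _
      (by rw [List.length_take]; omega) (by rw [List.length_take]; omega) hp'l hq'l hpq hpq'
      sp sq
    have hap' : Apart (p' ++ u.drop 10) (q' ++ v.drop 10) := eu ▸ ev' ▸ su.apart sv hap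
    have hapd : Apart ((red p' q').2.1 ++ u.drop 10) ((red p' q').2.2 ++ v.drop 10) :=
      (sc.inv.extend _).apart (sd.inv.extend _) hap'
    have hapc : Apart ((red (u.take 10) (v.take 10)).2.1 ++ u.drop 10)
        ((red (u.take 10) (v.take 10)).2.2 ++ v.drop 10) :=
      (sπp.inv.extend _).apart (sπq.inv.extend _) hapd
    have hT : 8 + (u.drop 10).length + (v.drop 10).length < N := by
      subst eu ev'
      simp only [List.length_append, List.length_drop, List.length_take] at *
      rcases hpe' with h | h <;> rcases hqe' with h' | h' <;>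
        simp only [List.drop_eq_nil_iff] at * <;> omega
    have hc := ih _ hT
    obtain ⟨p₁, q₁, -, -, s1, s2, econj⟩ := hc.lvl_conj hπ a1 a2
    obtain rfl := s1.unique sπp
    obtain rfl := s2.unique sπq
    have e1 := side ih hpq hpe hqe (by simpa using hap) (by simpa using hN)
    rw [List.take_append_drop, List.take_append_drop] at e1
    have e2 := side ih hpq' hpe' hqe' hap' (eu ▸ ev' ▸ hN')
    rw [← eu, ← ev'] at e2
    have e3 := econj _ _ hapc le_rfl
    have e4 := (hc.avoid_comm b1 b2 hη hapd le_rfl).eq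
    rw [map_mul, map_mul, map_mul] at erel
    rw [e1, e2]
    calc f (FreeGroup.of s) * (f (red (u.take 10) (v.take 10)).1 *
          f (Fw ((red (u.take 10) (v.take 10)).2.1 ++ u.drop 10)
            ((red (u.take 10) (v.take 10)).2.2 ++ v.drop 10)) *
          (f (red (u.take 10) (v.take 10)).1)⁻¹) * (f (FreeGroup.of s))⁻¹
        = (f (FreeGroup.of s) * f (red (u.take 10) (v.take 10)).1) *
          f (Fw ((red (u.take 10) (v.take 10)).2.1 ++ u.drop 10)
            ((red (u.take 10) (v.take 10)).2.2 ++ v.drop 10)) *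
          (f (FreeGroup.of s) * f (red (u.take 10) (v.take 10)).1)⁻¹ := by group
      _ = f (red p' q').1 * (f η * f (Fw ((red p' q').2.1 ++ u.drop 10)
            ((red p' q').2.2 ++ v.drop 10))) * (f η)⁻¹ * (f (red p' q').1)⁻¹ := by
          rw [erel, ← e3]; group
      _ = _ := by rw [e4]; group

end Vale.Agent.P193.VFP
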