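import Vale.Agent.P193.Full.VFP.Words

/-! The pointwise stabiliser of short cylinders is generated by short swaps avoiding them
(P193). -/

open Classical

noncomputable section

namespace Vale.Agent.P193.VFP

universe u

variable {X : Type u} {H : Halving X} [Nonempty X]

/-- Swaps of words of length four. -/
def lvl : Set FW := {z | ∃ a b, a.length = 4 ∧ b.length = 4 ∧ Apart a b ∧ z = base a b}

/-- Short swaps avoiding two words. -/
def avoid (p q : List Bool) : Set FW :=
  {z | ∃ g : Gen, (Apart g.1.1 p ∧ Apart g.1.2 p) ∧ (Apart g.1.1 q ∧ Apart g.1.2 q) ∧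
    z = FreeGroup.of g}

omit [Nonempty X] in
theorem exists_exchange (M : Coeff H) {a b : List Bool} (ha : a.length = 4) (hb : b.length = 4) :
    ∃ z ∈ Subgroup.closure lvl, Sends H (ev M z) a b ∧
      ∀ x : List Bool, x.length = 4 → ∃ x', x'.length = 4 ∧ Sends H (ev M z) x x' ∧
        (x ≠ a → x ≠ b → x' = x) := by
  by_cases h : a = b
  · subst h
    exact ⟨1, one_mem _, by rw [map_one]; exact sends_one _,
      fun x hx => ⟨x, hx, by rw [map_one]; exact sends_one _, fun _ _ => rfl⟩⟩
  have hab := apart_of_len (ha.trans hb.symm) h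
  refine ⟨base a b, Subgroup.subset_closure ⟨a, b, ha, hb, hab, rfl⟩, ?_⟩
  rw [ev_base M (by omega) (by omega) hab]
  refine ⟨sw_left hab, fun x hx => ?_⟩
  by_cases h1 : x = a
  · subst h1; exact ⟨b, hb, sw_left hab, fun e => absurd rfl e⟩
  by_cases h2 : x = b
  · subst h2; exact ⟨a, ha, sw_right hab, fun _ e => absurd rfl e⟩
  exact ⟨x, hx, sw_fix hab (apart_of_len (hx.trans ha.symm) h1)
    (apart_of_len (hx.trans hb.symm) h2), fun _ _ => rfl⟩

theorem exists_perm (M : Coeff H) {p q p' q' : List Bool} (hp : p.length = 4) (hq : q.length = 4)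
    (hp' : p'.length = 4) (hq' : q'.length = 4) (he : p = q ↔ p' = q') :
    ∃ z ∈ Subgroup.closure lvl, Sends H (ev M z) p p' ∧ Sends H (ev M z) q q' := by
  obtain ⟨z, hz, hzp, hall⟩ := exists_exchange M hp hp'
  obtain ⟨q₁, hq₁, hzq, -⟩ := hall q hq
  by_cases h : p = q
  · exact ⟨z, hz, hzp, by rw [← h, ← he.1 h]; exact hzp⟩
  obtain ⟨w, hw, hwq, hall'⟩ := exists_exchange M hq₁ hq'
  obtain ⟨p₁, -, hwp, hfix⟩ := hall' p' hp'
  obtain rfl : p₁ = p' :=
    hfix (fun e => h (hzp.unique_left (e ▸ hzq))) fun e => h (he.2 e)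
  exact ⟨w * z, mul_mem hw hz, by rw [map_mul]; exact hzp.mul hwp,
    by rw [map_mul]; exact hzq.mul hwq⟩

theorem sw_mem_avoid (M : Coeff H) {p q : List Bool} (hp : p.length = 4) (hq : q.length = 4) :
    ∀ n, ∀ u v : List Bool, ∀ h : Apart u v, u.length + v.length ≤ n → 4 ≤ u.length →
      4 ≤ v.length → (Apart u p ∧ Apart v p) ∧ (Apart u q ∧ Apart v q) →
      sw M h ∈ (Subgroup.closure (avoid p q)).map (ev M) := by
  intro n
  induction n with
  | zero => intros; omega
  | succ n ih =>
    have aux : ∀ u v : List Bool, ∀ h : Apart u v, u.length + v.length ≤ n + 1 → 4 < u.length →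
        4 ≤ v.length → (Apart u p ∧ Apart v p) ∧ (Apart u q ∧ Apart v q) →
        sw M h ∈ (Subgroup.closure (avoid p q)).map (ev M) := by
      rintro u v h hn hu hv ⟨⟨hup, hvp⟩, huq, hvq⟩
      obtain ⟨hS, hSn⟩ := slot_spec (l := [u.take 4, v.take 4, p, q]) (by simp)
      simp only [List.mem_cons, List.not_mem_nil, or_false, not_or] at hSn
      obtain ⟨h1, h2, h3, h4⟩ := hSn
      set S := slot [u.take 4, v.take 4, p, q]
      have hP : (u.take 5).length = 5 := by simp only [List.length_take]; omega
      have hPS : Apart (u.take 5) S := take_apart (by omega)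
        (by rw [hS, List.take_take, min_eq_left (by omega)]; exact Ne.symm h1)
      have hu4 : ∀ {r}, r.length = 4 → Apart u r → u.take 4 ≠ r := fun hr ha =>
        hr ▸ take_ne_of_apart ha
      have hPp : Apart (u.take 5) p := take_apart (by omega)
        (by rw [hp, List.take_take, min_eq_left (by omega)]; exact hu4 hp hup)
      have hPq : Apart (u.take 5) q := take_apart (by omega)
        (by rw [hq, List.take_take, min_eq_left (by omega)]; exact hu4 hq huq)
      have hSp : Apart S p := apart_of_len (hS.trans hp.symm) h3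
      have hSq : Apart S q := apart_of_len (hS.trans hq.symm) h4
      have su := move_sends (H := H) M hPS hP hS (by omega : 4 ≤ u.length) (Ne.symm h1)
        fun _ => hu
      have sv := move_sends (H := H) M hPS hP hS hv (Ne.symm h2) fun e => by
        by_contra h5
        rw [List.take_take, min_eq_left (by omega : 4 ≤ 5), List.take_of_length_le (by omega)] at e
        exact take_ne_of_apart h (by rw [show v.length = 4 by omega, ← e])
      have fp := sw_fix (H := H) (M := M) hPS hPp.symm hSp.symm
      have fq := sw_fix (H := H) (M := M) hPS hPq.symm hSq.symm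
      have h' := su.apart sv h
      have hl := move_lt (x := u) (P := u.take 5) (S := S) (by omega) (List.take_prefix _ _)
      have hl' := move_le (x := v) (P := u.take 5) (S := S) (by omega)
      have ih' := ih _ _ h' (by omega) (move_ge hS (by omega)) (move_ge hS hv)
        ⟨⟨su.apart fp hup, sv.apart fp hvp⟩, su.apart fq huq, sv.apart fq hvq⟩
      have hw : sw M hPS ∈ (Subgroup.closure (avoid p q)).map (ev M) :=
        ⟨_, Subgroup.subset_closure ⟨⟨(u.take 5, S), show (u.take 5).length ≤ 5 by omega, show S.length ≤ 5 by omega, hPS⟩, ⟨hPp, hSp⟩,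
          ⟨hPq, hSq⟩, rfl⟩, ev_of M _⟩
      rw [show sw M h = (sw M hPS)⁻¹ * sw M h' * ((sw M hPS)⁻¹)⁻¹ from
        (sw_conj h' su.inv sv.inv h).symm]
      exact mul_mem (mul_mem (inv_mem hw) ih') (inv_mem (inv_mem hw))
    intro u v h hn hu hv ha
    by_cases h1 : 4 < u.length
    · exact aux u v h hn h1 hv ha
    by_cases h2 : 4 < v.length
    · rw [← sw_symm h]
      exact aux v u h.symm (by omega) h2 hu ⟨ha.1.symm, ha.2.symm⟩
    exact ⟨_, Subgroup.subset_closure ⟨⟨(u, v), show u.length ≤ 5 by omega, show v.length ≤ 5 by omega, h⟩, ha.1, ha.2, rfl⟩,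
      ev_of M _⟩

/-- A prefix map from half the space onto a short cylinder with three ones. -/
def rot (M : Coeff H) : Equiv.Perm X :=
  sw M (apart_heads (by decide : false ≠ true) [] [true]) *
    sw M (show Apart [true, false] [true, true] from apart_bits [true]) *
    sw M (apart_heads (by decide : false ≠ true) [] [])

omit [Nonempty X] in
theorem rot_sends (M : Coeff H) : Sends H (rot M) [true] [true, true] :=
  (sw_right _).mul ((sw_fix _ (apart_heads (by decide) [] _) (apart_heads (by decide) [] _)).mul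
    (sw_left _))

omit [Nonempty X] in
theorem rot_mem (M : Coeff H) : rot M ∈ swapGroup M :=
  mul_mem (mul_mem (sw_mem _) (sw_mem _)) (sw_mem _)

theorem exists_frame (M : Coeff H) {p q : List Bool} (hp : p.length = 4) (hq : q.length = 4) :
    ∃ k ∈ swapGroup M, (∀ x, ∃ z, k (H.pre [true] x) = H.pre p z ∨ k (H.pre [true] x) = H.pre q z) ∧
      ∀ z, (∃ x, k (H.pre [true] x) = H.pre p z) ∧ ∃ x, k (H.pre [true] x) = H.pre q z := by
  have r2 : Sends H (rot M * rot M) [true] [true, true, true] :=
    (rot_sends M).mul ((rot_sends M).extend [true])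
  have r3 : Sends H (rot M * (rot M * rot M)) [true] [true, true, true, true] :=
    r2.mul ((rot_sends M).extend [true, true])
  by_cases h : p = q
  · subst h
    obtain ⟨z, -, hz, -⟩ := exists_perm M (p := [true, true, true, true])
      (q := [true, true, true, true]) rfl rfl hp hp (by simp)
    have hk := r3.mul hz
    refine ⟨_, mul_mem (ev_mem M z) (mul_mem (rot_mem M) (mul_mem (rot_mem M) (rot_mem M))),
      fun x => ⟨x, Or.inl (hk x)⟩, fun z => ⟨⟨z, hk z⟩, z, hk z⟩⟩
  · obtain ⟨z, -, hzp, hzq⟩ := exists_perm M (p := [true, true, true, false])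
      (q := [true, true, true, true]) rfl rfl hp hq (by simp [h])
    have hk₀ := (r2.extend [false]).mul hzp
    have hk₁ := (r2.extend [true]).mul hzq
    refine ⟨_, mul_mem (ev_mem M z) (mul_mem (rot_mem M) (rot_mem M)), fun x => ?_,
      fun y => ⟨⟨H.pre [false] y, by rw [← pre_append]; exact hk₀ y⟩,
        H.pre [true] y, by rw [← pre_append]; exact hk₁ y⟩⟩
    obtain ⟨v, x', hv, rfl⟩ := pre_surj H 1 x
    match v, hv with
    | [false], _ => exact ⟨x', Or.inl (by rw [← pre_append]; exact hk₀ x')⟩
    | [true], _ => exact ⟨x', Or.inr (by rw [← pre_append]; exact hk₁ x')⟩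

/-- An element fixing two short cylinders is a product of short swaps avoiding them. -/
theorem fixator {M : Coeff H} (hM : Trivial M) {p q : List Bool} (hp : p.length = 4)
    (hq : q.length = 4) {σ : Equiv.Perm X} (hσ : σ ∈ swapGroup M) (sp : Sends H σ p p)
    (sq : Sends H σ q q) : ∃ η ∈ Subgroup.closure (avoid p q), ev M η = σ := by
  obtain ⟨k, hk, himg, hcov⟩ := exists_frame M hp hq
  have hfix : ∀ x, (k⁻¹ * σ * k) (H.pre [true] x) = H.pre [true] x := by
    intro x
    have : σ (k (H.pre [true] x)) = k (H.pre [true] x) := by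
      obtain ⟨z, h | h⟩ := himg x <;> rw [h]
      exacts [sp z, sq z]
    rw [Equiv.Perm.mul_apply, Equiv.Perm.mul_apply, this]
    exact k.symm_apply_apply _
  obtain ⟨g, hg, he⟩ := exists_lp hM (mul_mem (mul_mem (inv_mem hk) hσ) hk) hfix
  obtain ⟨N, -, hN⟩ := exists_code hM hk 4
  let φ : Equiv.Perm X →* Equiv.Perm X :=
    (MulAut.conj k).toMonoidHom.comp (lp H [false])
  have hle : swapGroup M ≤ ((Subgroup.closure (avoid p q)).map (ev M)).comap φ := by
    refine (swapGroup_le_deep hM N).trans ((Subgroup.closure_le _).2 ?_)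
    rintro _ ⟨u, v, h, hu, hv, rfl⟩
    have h0 : Apart ([false] ++ u) ([false] ++ v) :=
      ⟨fun e => h.1 ((List.prefix_append_right_inj _).1 e),
        fun e => h.2 ((List.prefix_append_right_inj _).1 e)⟩
    obtain ⟨u', hu', su⟩ := hN ([false] ++ u) (by simp; omega)
    obtain ⟨v', hv', sv⟩ := hN ([false] ++ v) (by simp; omega)
    have out : ∀ {w w' : List Bool}, Sends H k ([false] ++ w) w' → Apart w' p ∧ Apart w' q := by
      intro w w' sw'
      refine ⟨apart_of_incomp (H := H) fun x z e => ?_, apart_of_incomp (H := H) fun x z e => ?_⟩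
      · obtain ⟨y, hy⟩ := (hcov z).1
        rw [← sw', ← hy, pre_append] at e
        exact incomp_bits _ _ (k.injective e)
      · obtain ⟨y, hy⟩ := (hcov z).2
        rw [← sw', ← hy, pre_append] at e
        exact incomp_bits _ _ (k.injective e)
    show k * lp H [false] (sw M h) * k⁻¹ ∈ (Subgroup.closure (avoid p q)).map (ev M)
    rw [lp_sw M [false] h h0, sw_conj h0 su sv (su.apart sv h0)]
    exact sw_mem_avoid M hp hq _ u' v' _ le_rfl hu' hv'
      ⟨⟨(out su).1, (out sv).1⟩, (out su).2, (out sv).2⟩
  have hm : φ g ∈ (Subgroup.closure (avoid p q)).map (ev M) := hle hg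
  obtain ⟨η, hη, e⟩ := hm
  refine ⟨η, hη, e.trans ?_⟩
  show k * lp H [false] g * k⁻¹ = σ
  rw [← he]
  group

end Vale.Agent.P193.VFP
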