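import Vale.Agent.P193.Full.VFP.Basic
import Mathlib.GroupTheory.FreeGroup.Basic
import Mathlib.Data.Set.Finite.List

/-! Short swaps, popping, and the chosen word of a deep swap (P193). -/

open Classical

noncomputable section

namespace Vale.Agent.P193.VFP

universe u

variable {X : Type u} {H : Halving X} (M : Coeff H)

/-- Two incomparable words of length at most five. -/
abbrev Gen : Type :=
  {p : List Bool × List Bool // p.1.length ≤ 5 ∧ p.2.length ≤ 5 ∧ Apart p.1 p.2}

instance : Finite Gen :=
  (((List.finite_length_le Bool 5).prod (List.finite_length_le Bool 5)).subset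
    fun _ hp => ⟨hp.1, hp.2.1⟩).to_subtype

/-- Words in the short swaps. -/
abbrev FW := FreeGroup Gen

/-- Evaluation of words. -/
def ev : FW →* Equiv.Perm X := FreeGroup.lift fun g => sw M g.2.2.2

theorem ev_of (g : Gen) : ev M (FreeGroup.of g) = sw M g.2.2.2 := FreeGroup.lift_apply_of

theorem ev_mem (z : FW) : ev M z ∈ swapGroup M := by
  have h : (ev M).range ≤ swapGroup M := by
    rw [ev, FreeGroup.range_lift_eq_closure, Subgroup.closure_le]
    rintro _ ⟨g, rfl⟩
    exact sw_mem _
  exact h ⟨z, rfl⟩

/-- The word of a short swap (one if the words are not short and incomparable). -/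
def base (a b : List Bool) : FW :=
  if h : a.length ≤ 5 ∧ b.length ≤ 5 ∧ Apart a b then FreeGroup.of ⟨(a, b), h⟩ else 1

theorem base_eq {a b : List Bool} (ha : a.length ≤ 5) (hb : b.length ≤ 5) (h : Apart a b) :
    base a b = FreeGroup.of ⟨(a, b), ha, hb, h⟩ := dif_pos _

theorem ev_base {a b : List Bool} (ha : a.length ≤ 5) (hb : b.length ≤ 5) (h : Apart a b) :
    ev M (base a b) = sw M h := by rw [base_eq ha hb h, ev_of]

theorem exists_slot (l : List (List Bool)) (hl : l.length ≤ 4) :
    ∃ s : List Bool, s.length = 4 ∧ s ∉ l := by
  by_contra h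
  push Not at h
  have h1 : (words 4).toFinset ⊆ l.toFinset := fun w hw =>
    List.mem_toFinset.2 (h w (mem_words.1 (List.mem_toFinset.1 hw)))
  have h2 := (Finset.card_le_card h1).trans (List.toFinset_card_le l)
  rw [show (words 4).toFinset.card = 16 by decide] at h2
  omega

/-- A word of length four avoiding the given ones. -/
def slot (l : List (List Bool)) : List Bool :=
  if h : l.length ≤ 4 then (exists_slot l h).choose else []

theorem slot_spec {l : List (List Bool)} (h : l.length ≤ 4) :
    (slot l).length = 4 ∧ slot l ∉ l := by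
  rw [slot, dif_pos h]
  exact (exists_slot l h).choose_spec

theorem slot_len_le (l : List (List Bool)) : (slot l).length ≤ 4 := by
  by_cases h : l.length ≤ 4
  · exact (slot_spec h).1.le
  · rw [slot, dif_neg h]; simp

theorem take_apart {x p : List Bool} (hp : p.length ≤ x.length) (h : x.take p.length ≠ p) :
    Apart x p :=
  ⟨fun e => h (by rw [e.eq_of_length (le_antisymm e.length_le hp), List.take_length]),
    fun e => h (List.prefix_iff_eq_take.1 e).symm⟩

theorem take_ne_of_apart {x p : List Bool} (h : Apart x p) :
    x.take p.length ≠ p := fun e => h.2 (e ▸ List.take_prefix _ _)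

/-- Replace the prefix `P` by `S`. -/
def move (P S x : List Bool) : List Bool := if P <+: x then S ++ x.drop P.length else x

theorem move_le {P S x : List Bool} (hS : S.length ≤ P.length) :
    (move P S x).length ≤ x.length := by
  unfold move
  split_ifs with h
  · have := h.length_le
    simp only [List.length_append, List.length_drop]; omega
  · exact le_rfl

theorem move_lt {P S x : List Bool} (hS : S.length < P.length) (h : P <+: x) :
    (move P S x).length < x.length := by
  rw [move, if_pos h]
  have := h.length_le
  simp only [List.length_append, List.length_drop]; omega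

theorem move_ge {P S x : List Bool} (hS : S.length = 4) (hx : 4 ≤ x.length) :
    4 ≤ (move P S x).length := by
  unfold move
  split_ifs
  · simp only [List.length_append]; omega
  · exact hx

theorem move_sends {P S x : List Bool} (h : Apart P S) (hP : P.length = 5) (hS : S.length = 4)
    (hx : 4 ≤ x.length) (h1 : x.take 4 ≠ S) (h2 : x.take 4 = P.take 4 → 5 ≤ x.length) :
    Sends H (sw M h) x (move P S x) := by
  unfold move
  split_ifs with hp
  · obtain ⟨r, rfl⟩ := hp
    rw [List.drop_left]
    exact (sw_left h).extend r
  · refine sw_fix h ⟨fun e => hp ?_, hp⟩ (take_apart (by omega) (hS.symm ▸ h1))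
    by_cases h5 : 5 ≤ x.length
    · rw [e.eq_of_length (le_antisymm e.length_le (hP.symm ▸ h5))]
    · refine absurd (h2 ?_) h5
      rw [List.prefix_iff_eq_take.1 e, List.take_take, min_eq_left]
      omega

theorem lp_sw (p : List Bool) {a b : List Bool} (h : Apart a b) (h' : Apart (p ++ a) (p ++ b)) :
    lp H p (sw M h) = sw M h' := by
  rw [sw, lp_swap]
  exact congrArg swapPerm (Subtype.ext (piece_piece p p a b _))

/-! ### Popping a pair -/

/-- Deep pairs of equal or incomparable words. -/
def Pr (p q : List Bool) : Prop := 4 ≤ p.length ∧ 4 ≤ q.length ∧ (p = q ∨ Apart p q)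

/-- The word to pop. -/
def sel (p q : List Bool) : List Bool := if 4 < p.length then p else q

/-- The prefix to replace. -/
def popP (p q : List Bool) : List Bool := (sel p q).take 5

/-- The slot to use. -/
def popS (p q : List Bool) : List Bool := slot [p.take 4, q.take 4]

theorem popS_spec (p q : List Bool) :
    (popS p q).length = 4 ∧ p.take 4 ≠ popS p q ∧ q.take 4 ≠ popS p q := by
  have h := slot_spec (l := [p.take 4, q.take 4]) (by simp)
  simp only [List.mem_cons, List.not_mem_nil, or_false, not_or] at h
  exact ⟨h.1, Ne.symm h.2.1, Ne.symm h.2.2⟩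

theorem sel_len {p q : List Bool} (h : 4 < p.length ∨ 4 < q.length) : 4 < (sel p q).length := by
  unfold sel; split_ifs with hp <;> omega

theorem popP_len {p q : List Bool} (h : 4 < p.length ∨ 4 < q.length) :
    (popP p q).length = 5 := by
  have := sel_len h
  rw [popP, List.length_take]; omega

theorem popP_take {p q : List Bool} : (popP p q).take 4 = p.take 4 ∨
    (popP p q).take 4 = q.take 4 := by
  unfold popP sel
  split_ifs <;> simp [List.take_take]

theorem pop_apart {p q : List Bool} (h : 4 < p.length ∨ 4 < q.length) :
    Apart (popP p q) (popS p q) := by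
  obtain ⟨h1, h2, h3⟩ := popS_spec p q
  refine take_apart (by rw [popP_len h]; omega) ?_
  rw [h1]
  rcases popP_take (p := p) (q := q) with e | e <;> rw [e] <;> assumption

theorem pop_lt {p q : List Bool} (h : 4 < p.length ∨ 4 < q.length) :
    (move (popP p q) (popS p q) p).length + (move (popP p q) (popS p q) q).length <
      p.length + q.length := by
  have hl : (popS p q).length < (popP p q).length := by
    rw [popP_len h, (popS_spec p q).1]; omega
  have h1 := move_le (x := p) hl.le
  have h2 := move_le (x := q) hl.le
  by_cases hp : 4 < p.length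
  · have := move_lt (x := p) hl (by rw [popP, sel, if_pos hp]; exact List.take_prefix _ _)
    omega
  · have := move_lt (x := q) hl (by rw [popP, sel, if_neg hp]; exact List.take_prefix _ _)
    omega

/-- Reduction of a pair to length four: a word carrying the reduced pair to the pair. -/
def red (p q : List Bool) : FW × List Bool × List Bool :=
  if _h : 4 < p.length ∨ 4 < q.length then
    let t := red (move (popP p q) (popS p q) p) (move (popP p q) (popS p q) q)
    (base (popP p q) (popS p q) * t.1, t.2)
  else (1, p, q)
termination_by p.length + q.length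
decreasing_by exact pop_lt _h

/-- The word of the swap of a deep pair. -/
def Fw (u v : List Bool) : FW :=
  (red u v).1 * base (red u v).2.1 (red u v).2.2 * (red u v).1⁻¹

theorem red_pos {p q : List Bool} (h : 4 < p.length ∨ 4 < q.length) :
    red p q = (base (popP p q) (popS p q) *
      (red (move (popP p q) (popS p q) p) (move (popP p q) (popS p q) q)).1,
      (red (move (popP p q) (popS p q) p) (move (popP p q) (popS p q) q)).2) := by
  rw [red, dif_pos h]

theorem red_neg {p q : List Bool} (h : ¬ (4 < p.length ∨ 4 < q.length)) : red p q = (1, p, q) := by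
  rw [red, dif_neg h]

theorem Fw_pos {u v : List Bool} (h : 4 < u.length ∨ 4 < v.length) :
    Fw u v = base (popP u v) (popS u v) *
      Fw (move (popP u v) (popS u v) u) (move (popP u v) (popS u v) v) *
      (base (popP u v) (popS u v))⁻¹ := by
  simp only [Fw, red_pos h]
  group

theorem Fw_four {u v : List Bool} (hu : u.length = 4) (hv : v.length = 4) :
    Fw u v = base u v := by
  rw [Fw, red_neg (by omega)]
  simp

variable {M}

theorem Pr.ne_of_len {p q : List Bool} (h : Pr p q) (hp : p.length = 4) (hq : 4 < q.length) :
    q.take 4 ≠ p.take 4 := by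
  rcases h.2.2 with rfl | ha
  · omega
  · have := take_ne_of_apart (x := q) (p := p) ha.symm
    rwa [hp, ← List.take_of_length_le hp.le] at this

theorem pop_sends {p q : List Bool} (hpq : Pr p q) (h : 4 < p.length ∨ 4 < q.length) :
    Sends H (ev M (base (popP p q) (popS p q))) p (move (popP p q) (popS p q) p) ∧
    Sends H (ev M (base (popP p q) (popS p q))) q (move (popP p q) (popS p q) q) := by
  obtain ⟨h1, h2, h3⟩ := popS_spec p q
  have hP := popP_len h
  rw [ev_base M (by omega) (by omega) (pop_apart h)]
  refine ⟨move_sends M _ hP h1 hpq.1 h2 fun e => ?_, move_sends M _ hP h1 hpq.2.1 h3 fun e => ?_⟩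
  · by_contra hp
    have hp' : ¬ 4 < p.length := by omega
    rw [popP, sel, if_neg hp', List.take_take, min_eq_left (by omega)] at e
    exact hpq.ne_of_len (by have := hpq.1; omega) (h.resolve_left hp') e.symm
  · by_contra hq
    have hq' : ¬ 4 < q.length := by omega
    have hp := h.resolve_right hq'
    rw [popP, sel, if_pos hp, List.take_take, min_eq_left (by omega)] at e
    exact (Pr.ne_of_len (p := q) (q := p) ⟨hpq.2.1, hpq.1, hpq.2.2.imp Eq.symm Apart.symm⟩
      (by have := hpq.2.1; omega) hp) e.symm

variable [Nonempty X]

theorem Pr.map {σ : Equiv.Perm X} {p q p' q' : List Bool} (h : Pr p q) (hp : Sends H σ p p')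
    (hq : Sends H σ q q') (hp' : 4 ≤ p'.length) (hq' : 4 ≤ q'.length) : Pr p' q' :=
  ⟨hp', hq', h.2.2.imp (fun e => by subst e; exact hp.unique hq) (hp.apart hq)⟩

theorem pop_Pr (M : Coeff H) {p q : List Bool} (hpq : Pr p q) (h : 4 < p.length ∨ 4 < q.length) :
    Pr (move (popP p q) (popS p q) p) (move (popP p q) (popS p q) q) :=
  hpq.map (pop_sends (M := M) hpq h).1 (pop_sends (M := M) hpq h).2
    (move_ge (popS_spec p q).1 hpq.1) (move_ge (popS_spec p q).1 hpq.2.1)

theorem red_spec (M : Coeff H) : ∀ n, ∀ p q : List Bool, p.length + q.length ≤ n → Pr p q →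
    (red p q).2.1.length = 4 ∧ (red p q).2.2.length = 4 ∧
    Sends H (ev M (red p q).1) (red p q).2.1 p ∧ Sends H (ev M (red p q).1) (red p q).2.2 q := by
  intro n
  induction n with
  | zero => intro p q hn h; have := h.1; omega
  | succ n ih =>
    intro p q hn hpq
    by_cases h : 4 < p.length ∨ 4 < q.length
    · obtain ⟨a, b, c, d⟩ := ih _ _ (by have := pop_lt h; omega) (pop_Pr M hpq h)
      obtain ⟨s, t⟩ := pop_sends (M := M) hpq h
      rw [red_pos h]
      refine ⟨a, b, ?_, ?_⟩ <;> simp only [map_mul]
      · have := c.mul (s.inv : Sends H _ _ p)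
        rwa [show (ev M (base (popP p q) (popS p q)))⁻¹ = ev M (base (popP p q) (popS p q)) by
          rw [ev_base M (by rw [popP_len h]) (by rw [(popS_spec p q).1]; omega) (pop_apart h)]
          rfl] at this
      · have := d.mul (t.inv : Sends H _ _ q)
        rwa [show (ev M (base (popP p q) (popS p q)))⁻¹ = ev M (base (popP p q) (popS p q)) by
          rw [ev_base M (by rw [popP_len h]) (by rw [(popS_spec p q).1]; omega) (pop_apart h)]
          rfl] at this
    · rw [red_neg h]
      exact ⟨show p.length = 4 by have := hpq.1; omega, show q.length = 4 by have := hpq.2.1; omega,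
        by rw [map_one]; exact sends_one _, by rw [map_one]; exact sends_one _⟩

theorem ev_Fw {u v : List Bool} (hu : 4 ≤ u.length) (hv : 4 ≤ v.length) (h : Apart u v) :
    ev M (Fw u v) = sw M h := by
  obtain ⟨a, b, c, d⟩ := red_spec M _ u v le_rfl ⟨hu, hv, Or.inr h⟩
  have hab : Apart (red u v).2.1 (red u v).2.2 := c.inv.apart d.inv h
  rw [Fw, map_mul, map_mul, map_inv, ev_base M (by omega) (by omega) hab]
  exact sw_conj hab c d h

end Vale.Agent.P193.VFP
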